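import Mathlib

/-!
Pure lemma (**) for Seymour's second neighbourhood conjecture (helper314, note 23045).
-/

namespace H314S

open Finset

variable {V : Type*} [Fintype V] [DecidableEq V]

open Classical in
/-- out-neighbours (closed relation `r`) of a set -/
noncomputable def nbr (r : V → V → Prop) (K : Finset V) : Finset V :=
  univ.filter (fun b => ∃ q ∈ K, r q b)

omit [DecidableEq V] in
lemma mem_nbr {r : V → V → Prop} {K : Finset V} {b : V} :
    b ∈ nbr r K ↔ ∃ q ∈ K, r q b := by
  classical
  simp [nbr]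

/-- the cut value of `K` -/
noncomputable def g (r : V → V → Prop) (Q K Z : Finset V) : ℕ :=
  (Q \ K).card + (nbr r K ∩ Z).card

/-- the deficiency form of the matching number -/
noncomputable def nu (r : V → V → Prop) (Q Z : Finset V) : ℕ :=
  Q.powerset.inf' ⟨∅, by simp⟩ (fun K => g r Q K Z)

lemma nu_le {r : V → V → Prop} {Q K Z : Finset V} (h : K ⊆ Q) : nu r Q Z ≤ g r Q K Z := by
  unfold nu
  exact Finset.inf'_le (fun K => g r Q K Z) (Finset.mem_powerset.2 h)

lemma nu_attained (r : V → V → Prop) (Q Z : Finset V) :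
    ∃ K, K ⊆ Q ∧ nu r Q Z = g r Q K Z := by
  obtain ⟨K, hK, h⟩ := Finset.exists_mem_eq_inf' (s := Q.powerset) ⟨∅, by simp⟩
    (fun K => g r Q K Z)
  exact ⟨K, Finset.mem_powerset.1 hK, h⟩

lemma nu_empty (r : V → V → Prop) (Q : Finset V) : nu r Q ∅ = 0 := by
  have := nu_le (r := r) (Q := Q) (K := Q) (Z := ∅) (Finset.Subset.refl _)
  simpa [g] using this

lemma nu_le_card (r : V → V → Prop) (Q Z : Finset V) : nu r Q Z ≤ Q.card := by
  have := nu_le (r := r) (Q := Q) (K := ∅) (Z := Z) (by simp)
  have h2 : nbr r (∅ : Finset V) = ∅ := by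
    ext b; simp [mem_nbr]
  simpa [g, h2] using this

lemma nu_eq_card {r : V → V → Prop} {Q Z : Finset V}
    (hall : ∀ K, K ⊆ Q → K.card ≤ (nbr r K ∩ Z).card) : nu r Q Z = Q.card := by
  apply le_antisymm (nu_le_card r Q Z)
  obtain ⟨K, hK, h⟩ := nu_attained r Q Z
  rw [h]
  unfold g
  have h1 := hall K hK
  have h2 := Finset.card_sdiff_add_card_eq_card hK
  omega

lemma nu_mono (r : V → V → Prop) (Q : Finset V) {Z Z' : Finset V} (h : Z ⊆ Z') :
    nu r Q Z ≤ nu r Q Z' := by
  obtain ⟨K, hK, h'⟩ := nu_attained r Q Z'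
  rw [h']
  refine (nu_le hK).trans ?_
  unfold g
  have := Finset.card_le_card (Finset.inter_subset_inter (Finset.Subset.refl (nbr r K)) h)
  omega

lemma nu_insert_le (r : V → V → Prop) (Q Z : Finset V) (b : V) :
    nu r Q (insert b Z) ≤ nu r Q Z + 1 := by
  obtain ⟨K, hK, h'⟩ := nu_attained r Q Z
  rw [h']
  refine (nu_le hK).trans ?_
  unfold g
  have h1 : nbr r K ∩ insert b Z ⊆ insert b (nbr r K ∩ Z) := by
    intro x hx
    simp only [Finset.mem_inter, Finset.mem_insert] at hx ⊢
    tauto
  have h2 := Finset.card_le_card h1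
  have h3 := Finset.card_insert_le b (nbr r K ∩ Z)
  omega

/-- (MON): the uncrossing inequality.  `Qa = T1_a`, `Qp = O_p`, `Za, Zp` the later supplies. -/
lemma nu_mon {r : V → V → Prop} {Qa Qp Za Zp : Finset V} {b : V}
    (hbp : b ∉ Zp)
    (F : ∀ q ∈ Qa, ∀ b', (b' = b ∨ b' ∈ Zp) → r q b' → q ∈ Qp)
    (F2 : ∀ q ∈ Qa, ∀ b' ∈ Zp, r q b' → b' ∈ Za) :
    nu r Qa (insert b Za) + nu r Qp Zp ≤ nu r Qa Za + nu r Qp (insert b Zp) := by
  obtain ⟨Ka, hKa, ha⟩ := nu_attained r Qa Za
  obtain ⟨Kp, hKp, hp⟩ := nu_attained r Qp (insert b Zp)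
  rw [ha, hp]
  by_cases h1 : b ∈ nbr r Ka
  · by_cases h2 : b ∈ nbr r Kp
    · have e1 : nu r Qa (insert b Za) ≤ g r Qa Ka Za + 1 := by
        refine (nu_insert_le r Qa Za b).trans ?_
        have := nu_le (r := r) (Z := Za) hKa
        omega
      have e2 : nu r Qp Zp + 1 ≤ g r Qp Kp (insert b Zp) := by
        have := nu_le (r := r) (Z := Zp) hKp
        have h3 : (nbr r Kp ∩ insert b Zp).card = (nbr r Kp ∩ Zp).card + 1 := by
          rw [Finset.inter_insert_of_mem h2, Finset.card_insert_of_notMem]
          simp [hbp]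
        unfold g at this ⊢
        omega
      omega
    · -- the uncrossing
      set Kp' := Kp ∪ (Ka ∩ Qp) with hKp'
      set Ka' := Ka \ (Qp \ Kp) with hKa'
      have sa : Ka' ⊆ Qa := (Finset.sdiff_subset).trans hKa
      have sp : Kp' ⊆ Qp := Finset.union_subset hKp Finset.inter_subset_right
      have e1 := nu_le (r := r) (Z := insert b Za) sa
      have e2 := nu_le (r := r) (Z := Zp) sp
      refine (Nat.add_le_add e1 e2).trans ?_
      unfold g
      -- cardinalities of the sets
      have c1 : Ka'.card + Kp'.card = Ka.card + Kp.card := by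
        have hA : Ka' = Ka \ ((Ka ∩ Qp) \ Kp) := by
          ext x; simp only [hKa', Finset.mem_sdiff, Finset.mem_inter]; tauto
        have hB : Kp' = Kp ∪ ((Ka ∩ Qp) \ Kp) := by
          ext x; simp only [hKp', Finset.mem_union, Finset.mem_sdiff, Finset.mem_inter]; tauto
        have hsub : (Ka ∩ Qp) \ Kp ⊆ Ka :=
          (Finset.sdiff_subset).trans Finset.inter_subset_left
        have h3 := Finset.card_sdiff_add_card_eq_card hsub
        have h4 : (Kp ∪ ((Ka ∩ Qp) \ Kp)).card = Kp.card + ((Ka ∩ Qp) \ Kp).card :=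
          Finset.card_union_of_disjoint Finset.disjoint_sdiff
        rw [hA, hB, h4]
        omega
      have d1 := Finset.card_sdiff_add_card_eq_card sa
      have d2 := Finset.card_sdiff_add_card_eq_card sp
      have d3 := Finset.card_sdiff_add_card_eq_card hKa
      have d4 := Finset.card_sdiff_add_card_eq_card hKp
      -- elements of Ka' adjacent to b or Zp lie in Kp
      have key : ∀ q ∈ Ka', ∀ b', (b' = b ∨ b' ∈ Zp) → r q b' → q ∈ Kp := by
        intro q hq b' hb' hr
        rw [hKa', Finset.mem_sdiff] at hq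
        have hqp := F q (hKa hq.1) b' hb' hr
        by_contra hne
        exact hq.2 (Finset.mem_sdiff.2 ⟨hqp, hne⟩)
      have hbn : b ∉ nbr r Ka' := by
        intro hb
        obtain ⟨q, hq, hr⟩ := mem_nbr.1 hb
        exact h2 (mem_nbr.2 ⟨q, key q hq b (Or.inl rfl) hr, hr⟩)
      have i1 : nbr r Ka' ∩ insert b Za = nbr r Ka' ∩ Za := by
        rw [Finset.inter_insert_of_notMem hbn]
      have i2 : nbr r Kp ∩ insert b Zp = nbr r Kp ∩ Zp := by
        rw [Finset.inter_insert_of_notMem h2]
      have i3 : (nbr r Ka' ∩ Za).card + (nbr r Kp' ∩ Zp).card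
          ≤ (nbr r Ka ∩ Za).card + (nbr r Kp ∩ Zp).card := by
        -- new part
        set W := (nbr r Kp' ∩ Zp) \ (nbr r Kp) with hW
        have w1 : nbr r Kp' ∩ Zp ⊆ (nbr r Kp ∩ Zp) ∪ W := by
          intro x hx
          simp only [hW, Finset.mem_union, Finset.mem_inter, Finset.mem_sdiff] at hx ⊢
          tauto
        have w2 : W ⊆ (nbr r Ka ∩ Za) \ (nbr r Ka' ∩ Za) := by
          intro x hx
          rw [hW, Finset.mem_sdiff, Finset.mem_inter] at hx
          obtain ⟨⟨hx1, hx2⟩, hx3⟩ := hx
          obtain ⟨q, hq, hr⟩ := mem_nbr.1 hx1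
          rw [hKp', Finset.mem_union] at hq
          rcases hq with hq | hq
          · exact absurd (mem_nbr.2 ⟨q, hq, hr⟩) hx3
          · rw [Finset.mem_inter] at hq
            rw [Finset.mem_sdiff, Finset.mem_inter, Finset.mem_inter]
            refine ⟨⟨mem_nbr.2 ⟨q, hq.1, hr⟩, F2 q (hKa hq.1) x hx2 hr⟩, ?_⟩
            rintro ⟨hy, -⟩
            obtain ⟨q', hq', hr'⟩ := mem_nbr.1 hy
            exact hx3 (mem_nbr.2 ⟨q', key q' hq' x (Or.inr hx2) hr', hr'⟩)
        have w3 : nbr r Ka' ∩ Za ⊆ nbr r Ka ∩ Za := by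
          intro x hx
          rw [Finset.mem_inter] at hx ⊢
          refine ⟨?_, hx.2⟩
          obtain ⟨q, hq, hr⟩ := mem_nbr.1 hx.1
          exact mem_nbr.2 ⟨q, (Finset.mem_sdiff.1 hq).1, hr⟩
        have w4 := Finset.card_le_card w2
        have w5 := Finset.card_sdiff_add_card_eq_card w3
        have w6 := (Finset.card_le_card w1).trans (Finset.card_union_le _ _)
        omega
      rw [i1, i2]
      omega
  · have e1 : nu r Qa (insert b Za) ≤ g r Qa Ka Za := by
      refine (nu_le hKa).trans ?_
      unfold g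
      rw [Finset.inter_insert_of_notMem h1]
    have e2 : nu r Qp Zp ≤ g r Qp Kp (insert b Zp) := by
      refine (nu_mono r Qp (Finset.subset_insert b Zp)).trans ?_
      exact nu_le hKp
    omega

/-- telescoping -/
lemma tele {W : Type*} [LinearOrder W] (f : Finset W → ℤ) (B : Finset W) :
    ∑ b ∈ B, (f (B.filter (fun x => b ≤ x)) - f (B.filter (fun x => b < x))) = f B - f ∅ := by
  induction B using Finset.induction_on_min with
  | empty => simp
  | insert a s hs ih =>
    have ha : a ∉ s := fun h => lt_irrefl _ (hs a h)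
    rw [Finset.sum_insert ha]
    have h1 : (insert a s).filter (fun x => a ≤ x) = insert a s := by
      apply Finset.filter_true_of_mem
      intro x hx
      rcases Finset.mem_insert.1 hx with rfl | hx
      · exact le_refl _
      · exact (hs x hx).le
    have h2 : (insert a s).filter (fun x => a < x) = s := by
      ext x
      simp only [Finset.mem_filter, Finset.mem_insert]
      constructor
      · rintro ⟨rfl | hx, hlt⟩
        · exact absurd hlt (lt_irrefl _)
        · exact hx
      · intro hx
        exact ⟨Or.inr hx, hs x hx⟩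
    rw [h1, h2]
    have h3 : ∑ b ∈ s, (f ((insert a s).filter (fun x => b ≤ x))
          - f ((insert a s).filter (fun x => b < x)))
        = ∑ b ∈ s, (f (s.filter (fun x => b ≤ x)) - f (s.filter (fun x => b < x))) := by
      apply Finset.sum_congr rfl
      intro b hb
      have hab := hs b hb
      rw [Finset.filter_insert, if_neg (not_le.2 hab), Finset.filter_insert,
        if_neg (not_lt.2 hab.le)]
    rw [h3, ih]
    ring

/-- the marginal of `b` -/
noncomputable def m [LinearOrder V] (r : V → V → Prop) (Q B : Finset V) (b : V) : ℤ :=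
  (nu r Q (B.filter (fun x => b ≤ x)) : ℤ) - nu r Q (B.filter (fun x => b < x))

lemma filter_le_eq [LinearOrder V] {B : Finset V} {b : V} (hb : b ∈ B) :
    B.filter (fun x => b ≤ x) = insert b (B.filter (fun x => b < x)) := by
  ext x
  simp only [Finset.mem_filter, Finset.mem_insert]
  constructor
  · rintro ⟨hx, hle⟩
    rcases eq_or_lt_of_le hle with h | h
    · exact Or.inl h.symm
    · exact Or.inr ⟨hx, h⟩
  · rintro (rfl | ⟨hx, h⟩)
    · exact ⟨hb, le_refl _⟩
    · exact ⟨hx, h.le⟩

lemma m_nonneg [LinearOrder V] (r : V → V → Prop) (Q : Finset V) {B : Finset V} {b : V}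
    (hb : b ∈ B) : 0 ≤ m r Q B b := by
  unfold m
  rw [filter_le_eq hb]
  have := nu_mono r Q (Finset.subset_insert b (B.filter (fun x => b < x)))
  omega

lemma m_le_one [LinearOrder V] (r : V → V → Prop) (Q : Finset V) {B : Finset V} {b : V}
    (hb : b ∈ B) : m r Q B b ≤ 1 := by
  unfold m
  rw [filter_le_eq hb]
  have := nu_insert_le r Q (B.filter (fun x => b < x)) b
  omega

lemma sum_m [LinearOrder V] (r : V → V → Prop) (Q B : Finset V) :
    ∑ b ∈ B, m r Q B b = nu r Q B := by
  have := tele (fun Z => (nu r Q Z : ℤ)) B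
  simp only [nu_empty] at this
  unfold m
  simpa using this

open Classical in
/-- Hall one level up (Step 5). -/
lemma hallUp {V : Type*} [Fintype V] [LinearOrder V] (r : V → V → Prop) (I : V → Prop)
    (O D : V → V → Prop) (PP : V → Prop) (K : Finset V)
    (hK : ∀ q ∈ K, ∃ p, I p ∧ O p q)
    (hrow : ∀ p, ∀ L : Finset V, (∀ q ∈ L, O p q) →
      L.card ≤ (univ.filter (fun b => D p b ∧ ∃ q ∈ L, r q b)).card)
    (hkey : ∀ p q b, I p → q ∈ K → r q b → D p b → O p q ∧ PP b) :
    K.card ≤ (univ.filter (fun b => PP b ∧ ∃ q ∈ K, r q b)).card := by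
  rcases isEmpty_or_nonempty V with hV | hV
  · have : K = ∅ := Finset.eq_empty_of_isEmpty K
    rw [this]; simp
  have h1 : ∀ q ∈ K, ∃ p, (I p ∧ O p q) ∧ ∀ p', p' < p → I p' → ¬ O p' q := by
    intro q hq
    obtain ⟨p, hp⟩ := hK q hq
    let T : Finset V := univ.filter (fun p => I p ∧ O p q)
    have hT : T.Nonempty := ⟨p, by simp [T, hp]⟩
    refine ⟨T.min' hT, ?_, ?_⟩
    · have := Finset.min'_mem T hT
      simpa [T] using this
    · intro p' hlt hI hO
      have : T.min' hT ≤ p' := Finset.min'_le T p' (by simp [T, hI, hO])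
      exact absurd hlt (not_lt.2 this)
  choose! φ hφ using h1
  set Kp : V → Finset V := fun p => K.filter (fun q => φ q = p) with hKp
  set N : V → Finset V := fun p =>
    univ.filter (fun b => D p b ∧ ∃ q ∈ Kp p, r q b) with hN
  have hcard : K.card = ∑ p ∈ (univ : Finset V), (Kp p).card :=
    Finset.card_eq_sum_card_fiberwise (fun q _ => Finset.mem_univ _)
  have hle : ∀ p ∈ (univ : Finset V), (Kp p).card ≤ (N p).card := by
    intro p _
    apply hrow p (Kp p)
    intro q hq
    rw [hKp, Finset.mem_filter] at hq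
    have := (hφ q hq.1).1.2
    rwa [hq.2] at this
  have hlt : ∀ p p' b, p < p' → b ∈ N p → b ∈ N p' → False := by
    intro p p' b hpp hb hb'
    simp only [hN, hKp, Finset.mem_filter, Finset.mem_univ, true_and] at hb hb'
    obtain ⟨hD, q, ⟨hq, hqp⟩, hr⟩ := hb
    obtain ⟨hD', q', ⟨hq', hqp'⟩, hr'⟩ := hb'
    have hI : I p := by
      have := (hφ q hq).1.1
      rwa [hqp] at this
    have hO := (hkey p q' b hI hq' hr' hD).1
    have := (hφ q' hq').2 p (by rw [hqp']; exact hpp) hI
    exact this hO
  have hdisj : Set.PairwiseDisjoint (↑(univ : Finset V)) N := by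
    intro p _ p' _ hne
    rw [Function.onFun, Finset.disjoint_left]
    intro b hb hb'
    rcases lt_or_gt_of_ne hne with h | h
    · exact hlt p p' b h hb hb'
    · exact hlt p' p b h hb' hb
  calc K.card = ∑ p ∈ (univ : Finset V), (Kp p).card := hcard
    _ ≤ ∑ p ∈ (univ : Finset V), (N p).card := Finset.sum_le_sum hle
    _ = ((univ : Finset V).biUnion N).card := (Finset.card_biUnion hdisj).symm
    _ ≤ _ := by
      apply Finset.card_le_card
      intro b hb
      rw [Finset.mem_biUnion] at hb
      obtain ⟨p, -, hb⟩ := hb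
      simp only [hN, hKp, Finset.mem_filter, Finset.mem_univ, true_and] at hb ⊢
      obtain ⟨hD, q, ⟨hq, hqp⟩, hr⟩ := hb
      have hI : I p := by
        have := (hφ q hq).1.1
        rwa [hqp] at this
      exact ⟨(hkey p q b hI hq hr hD).2, q, hq, hr⟩

open Classical in
lemma card_prod_filter {V : Type*} [Fintype V] (C : V → V → Prop) :
    (univ.filter (fun x : V × V => C x.1 x.2)).card
      = ∑ a : V, (univ.filter (fun q => C a q)).card := by
  rw [Finset.card_filter, ← Finset.univ_product_univ, Finset.sum_product]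
  apply Finset.sum_congr rfl
  intro a _
  rw [Finset.card_filter]

open Classical in
theorem star' {V : Type*} [Fintype V] [LinearOrder V] (r O C D P : V → V → Prop)
    (key : ∀ p a q b, r p a → r q b → C a q → D p b → O p q ∧ P a b)
    (hC : ∀ a q, C a q → ∃ p, r p a ∧ O p q)
    (hD : ∀ p b, D p b → ∃ q, r q b ∧ O p q)
    (hrow : ∀ p, ∀ K : Finset V, (∀ q ∈ K, O p q) →
      K.card ≤ (univ.filter (fun b => D p b ∧ ∃ q ∈ K, r q b)).card)
    (hcol : ∀ q, ∀ K : Finset V, (∀ p ∈ K, O p q) →
      K.card ≤ (univ.filter (fun a => C a q ∧ ∃ p ∈ K, r p a)).card) :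
    (univ.filter (fun x : V × V => C x.1 x.2)).card
      + (univ.filter (fun x : V × V => D x.1 x.2)).card
    ≤ (univ.filter (fun x : V × V => O x.1 x.2)).card
      + (univ.filter (fun x : V × V => P x.1 x.2)).card := by
  set Op : V → Finset V := fun p => univ.filter (fun q => O p q) with hOp
  set Dp : V → Finset V := fun p => univ.filter (fun b => D p b) with hDp
  set Ca : V → Finset V := fun a => univ.filter (fun q => C a q) with hCa
  set Pa : V → Finset V := fun a => univ.filter (fun b => P a b) with hPa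
  have mOp : ∀ p q, q ∈ Op p ↔ O p q := by intro p q; simp [hOp]
  have mDp : ∀ p q, q ∈ Dp p ↔ D p q := by intro p q; simp [hDp]
  have mCa : ∀ p q, q ∈ Ca p ↔ C p q := by intro p q; simp [hCa]
  have mPa : ∀ p q, q ∈ Pa p ↔ P p q := by intro p q; simp [hPa]
  -- (I)
  have hI : ∀ a, ∑ b ∈ Pa a, (1 - m r (Ca a) (Pa a) b) = ((Pa a).card : ℤ) - (Ca a).card := by
    intro a
    rw [Finset.sum_sub_distrib, sum_m]
    have : nu r (Ca a) (Pa a) = (Ca a).card := by
      apply nu_eq_card
      intro K hK
      have := hallUp r (fun p => r p a) O D (P a) K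
        (fun q hq => hC a q ((mCa a q).1 (hK hq))) hrow
        (fun p q b hI hq hr hD' => key p a q b hI hr ((mCa a q).1 (hK hq)) hD')
      refine this.trans (Finset.card_le_card ?_)
      intro b hb
      simp only [Finset.mem_filter, Finset.mem_univ, true_and] at hb
      rw [Finset.mem_inter, mem_nbr, mPa]
      exact ⟨hb.2, hb.1⟩
    rw [this]
    simp
  -- (II)
  have hII : ∀ p, ((Dp p).card : ℤ) - (Op p).card ≤ ∑ b ∈ Dp p, (1 - m r (Op p) (Dp p) b) := by
    intro p
    rw [Finset.sum_sub_distrib, sum_m]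
    have := nu_le_card r (Op p) (Dp p)
    simp only [Finset.sum_const, nsmul_eq_mul, mul_one]
    omega
  -- (MON)
  have hmon : ∀ p a b, r p a → D p b → P a b →
      m r (Ca a) (Pa a) b ≤ m r (Op p) (Dp p) b := by
    intro p a b hpa hDb hPb
    have hb1 : b ∈ Pa a := (mPa a b).2 hPb
    have hb2 : b ∈ Dp p := (mDp p b).2 hDb
    have := nu_mon (r := r) (Qa := Ca a) (Qp := Op p)
      (Za := (Pa a).filter (fun x => b < x)) (Zp := (Dp p).filter (fun x => b < x)) (b := b)
      (by simp)
      (by
        intro q hq b' hb' hr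
        have hDb' : D p b' := by
          rcases hb' with rfl | hb'
          · exact hDb
          · exact (mDp p b').1 (Finset.mem_filter.1 hb').1
        exact (mOp p q).2 (key p a q b' hpa hr ((mCa a q).1 hq) hDb').1)
      (by
        intro q hq b' hb' hr
        rw [Finset.mem_filter] at hb' ⊢
        exact ⟨(mPa a b').2 (key p a q b' hpa hr ((mCa a q).1 hq) ((mDp p b').1 hb'.1)).2,
          hb'.2⟩)
    rw [← filter_le_eq hb1, ← filter_le_eq hb2] at this
    unfold m
    omega
  -- (III)
  have hIII : ∀ b, ∑ p ∈ univ.filter (fun p => D p b), (1 - m r (Op p) (Dp p) b)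
      ≤ ∑ a ∈ univ.filter (fun a => P a b), (1 - m r (Ca a) (Pa a) b) := by
    intro b
    set S : Finset V := univ.filter (fun p => D p b ∧ m r (Op p) (Dp p) b = 0) with hS
    set N : Finset V := univ.filter (fun a => P a b ∧ ∃ p ∈ S, r p a) with hN
    have h1 : ∑ p ∈ univ.filter (fun p => D p b), (1 - m r (Op p) (Dp p) b) = (S.card : ℤ) := by
      have hSs : S = (univ.filter (fun p => D p b)).filter
          (fun p => m r (Op p) (Dp p) b = 0) := by
        rw [hS, Finset.filter_filter]
      rw [hSs, Finset.card_filter]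
      push_cast
      apply Finset.sum_congr rfl
      intro p hp
      have hDb : D p b := by simpa using hp
      have hb2 : b ∈ Dp p := (mDp p b).2 hDb
      have h0 := m_nonneg r (Op p) hb2
      have h1 := m_le_one r (Op p) hb2
      split_ifs with h
      · rw [h]; simp
      · omega
    have h2 : S.card ≤ N.card := by
      have := hallUp r (fun q => r q b) (fun q p => O p q) (fun q a => C a q)
        (fun a => P a b) S
        (fun p hp => by
          have hDb : D p b := by
            have := hp; simp only [hS, Finset.mem_filter] at this; exact this.2.1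
          exact hD p b hDb)
        (fun q L hL => hcol q L hL)
        (fun q p a hI hp hr hCa' => by
          have hDb : D p b := by
            have := hp; simp only [hS, Finset.mem_filter] at this; exact this.2.1
          exact key p a q b hr hI hCa' hDb)
      exact this
    have h3 : N ⊆ univ.filter (fun a => P a b) := by
      intro a ha
      simp only [hN, Finset.mem_filter, Finset.mem_univ, true_and] at ha ⊢
      exact ha.1
    have h4 : ∑ a ∈ N, (1 - m r (Ca a) (Pa a) b)
        ≤ ∑ a ∈ univ.filter (fun a => P a b), (1 - m r (Ca a) (Pa a) b) := by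
      apply Finset.sum_le_sum_of_subset_of_nonneg h3
      intro a ha _
      have hPb : P a b := by simpa using ha
      have := m_le_one r (Ca a) ((mPa a b).2 hPb)
      omega
    have h5 : (N.card : ℤ) ≤ ∑ a ∈ N, (1 - m r (Ca a) (Pa a) b) := by
      have : (N.card : ℤ) = ∑ a ∈ N, (1 : ℤ) := by simp
      rw [this]
      apply Finset.sum_le_sum
      intro a ha
      simp only [hN, hS, Finset.mem_filter, Finset.mem_univ, true_and] at ha
      obtain ⟨hPb, p, ⟨hDb, h0⟩, hr⟩ := ha
      have := hmon p a b hr hDb hPb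
      omega
    rw [h1]
    have : (S.card : ℤ) ≤ N.card := by exact_mod_cast h2
    linarith
  -- exchange of summation
  have ex : ∀ (R : V → V → Prop) (f : V → V → ℤ),
      ∑ a : V, ∑ b ∈ univ.filter (fun b => R a b), f a b
        = ∑ b : V, ∑ a ∈ univ.filter (fun a => R a b), f a b := by
    intro R f
    simp only [Finset.sum_filter]
    exact Finset.sum_comm
  have t1 : ∑ a : V, (((Pa a).card : ℤ) - (Ca a).card)
      = ∑ b : V, ∑ a ∈ univ.filter (fun a => P a b), (1 - m r (Ca a) (Pa a) b) := by
    rw [← ex P (fun a b => 1 - m r (Ca a) (Pa a) b)]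
    exact Finset.sum_congr rfl (fun a _ => (hI a).symm)
  have t2 : ∑ p : V, (((Dp p).card : ℤ) - (Op p).card)
      ≤ ∑ b : V, ∑ p ∈ univ.filter (fun p => D p b), (1 - m r (Op p) (Dp p) b) := by
    rw [← ex D (fun p b => 1 - m r (Op p) (Dp p) b)]
    exact Finset.sum_le_sum (fun p _ => hII p)
  have t3 := Finset.sum_le_sum (fun b (_ : b ∈ (univ : Finset V)) => hIII b)
  rw [card_prod_filter C, card_prod_filter D, card_prod_filter O, card_prod_filter P]
  have t4 : ∑ p : V, (((Dp p).card : ℤ) - (Op p).card)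
      ≤ ∑ a : V, (((Pa a).card : ℤ) - (Ca a).card) := by
    rw [t1]; exact t2.trans t3
  rw [Finset.sum_sub_distrib, Finset.sum_sub_distrib] at t4
  have t5 : (∑ a : V, ((Ca a).card : ℤ)) + ∑ p : V, ((Dp p).card : ℤ)
      ≤ (∑ p : V, ((Op p).card : ℤ)) + ∑ a : V, ((Pa a).card : ℤ) := by linarith
  exact_mod_cast t5

open Classical in
/-- **Row C**: the pure lemma (**) -/
theorem star {V : Type*} [Fintype V] (r O C D P : V → V → Prop)
    (key : ∀ p a q b, r p a → r q b → C a q → D p b → O p q ∧ P a b)
    (hC : ∀ a q, C a q → ∃ p, r p a ∧ O p q)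
    (hD : ∀ p b, D p b → ∃ q, r q b ∧ O p q)
    (hrow : ∀ p, ∀ K : Finset V, (∀ q ∈ K, O p q) →
      K.card ≤ (univ.filter (fun b => D p b ∧ ∃ q ∈ K, r q b)).card)
    (hcol : ∀ q, ∀ K : Finset V, (∀ p ∈ K, O p q) →
      K.card ≤ (univ.filter (fun a => C a q ∧ ∃ p ∈ K, r p a)).card) :
    (univ.filter (fun x : V × V => C x.1 x.2)).card
      + (univ.filter (fun x : V × V => D x.1 x.2)).card
    ≤ (univ.filter (fun x : V × V => O x.1 x.2)).card
      + (univ.filter (fun x : V × V => P x.1 x.2)).card := by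
  let _ : LinearOrder V := LinearOrder.lift' (Fintype.equivFin V) (Fintype.equivFin V).injective
  exact star' r O C D P key hC hD hrow hcol

end H314S
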